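import Vale.Agent.P234.Main

open scoped ContDiff Manifold

namespace Vale.Agent.Results.P234.Villani

theorem result {E : Type} [NormedAddCommGroup E] [NormedSpace ℝ E] [FiniteDimensional ℝ E]
    {M : Type} [TopologicalSpace M] [ChartedSpace E M] [IsManifold 𝓘(ℝ, E) ∞ M] [T2Space M]
    [CompactSpace M] [ConnectedSpace M] (g : Vale.Agent.P255.RMetric E M)
    (h : Vale.Agent.P234.WeakMTW g) (x : M) : Convex ℝ (Vale.Agent.P234.injDom g x) :=
  Vale.Agent.P234.main h x

end Vale.Agent.Results.P234.Villani
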